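import Vale.Agent.P307.R2.H581.LeStd

/-!
Families of models which are independent for the pieces of a fixed size are independent, if the
types over the smaller families are tame, uniformly.
-/

universe u v

open Set Cardinal Function

namespace Vale.Agent.P307.R2.H581

open Vale.Agent.P307.R2.H541 Vale.Agent.P307.R2.H541.PG Vale.Agent.P307.R2.H533

open scoped Classical

variable {ι : Type v} {C : Type u} {M : PG C}

variable {A A' B : Finset ι → Set C} {F F' : Finset (Finset ι)} {r s v w : Finset ι} {a : ι}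
  {σ τ κ β H : Cardinal.{u}}

/-- Stationarity over a model. -/
theorem stat (hM : M.Calc) {D y z : Set C} (hD : D ∈ M.S) {g : Equiv.Perm C} (hg : g ∈ M.G)
    (hgD : ∀ d ∈ D, g d = d) (hy : #y < M.χ) (hz : #z < M.χ) (h1 : M.Ind D y z)
    (h2 : M.Ind D (g '' y) z) : ∃ k ∈ M.G, (∀ a ∈ z, k a = a) ∧ ∀ e ∈ y, k e = g e := by
  obtain ⟨p, hpD, -, hp⟩ := hM.based hD hy
  have hgD' : ∀ d ∈ D, g⁻¹ d = d := fun d hd => fix_inv (hgD d hd)
  have h3 := h2.smul (M.G.inv_mem hg)
  have hcomp : ((g⁻¹ : Equiv.Perm C) ∘ g) = id := by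
    funext a
    exact inv_ap g a
  have h4 : (g⁻¹ : Equiv.Perm C) '' D = D := by
    ext x
    constructor
    · rintro ⟨d, hd, rfl⟩
      rwa [hgD' d hd]
    · intro hx
      exact ⟨x, hx, hgD' x hx⟩
  rw [h4, ← image_comp, hcomp, image_id] at h3
  obtain ⟨h, hh, -, h5, h6⟩ := hp g⁻¹ (M.G.inv_mem hg) (fun x hx => hgD' x (hpD hx)) z hz h1 h3
  refine ⟨g * h, M.G.mul_mem hg hh, fun a ha => ?_, fun e he => ?_⟩
  · rw [Equiv.Perm.mul_apply, h6 a ha, ap_inv]
  · rw [Equiv.Perm.mul_apply, h5 e he]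

/-- Independence from small pieces of a fixed size gives independence, if types are tame. -/
theorem ind_of_tm (hM : M.Calc) {D X y : Set C} (hD : D ∈ M.S) (hσ : σ < M.χ) (hy : #y ≤ σ)
    (hH : H < M.χ) (hT : ∀ ρ < M.χ, M.TmL σ H ρ (X ∪ D)) {g : Equiv.Perm C} (hg : g ∈ M.G)
    (hgD : ∀ d ∈ D, g d = d) (hgy : M.Ind D (g '' y) X)
    (h : ∀ z ⊆ X, #z ≤ H → M.Ind D y z) : M.Ind D y X := by
  have hyc : #y < M.χ := hy.trans_lt hσ
  have h1 : ∀ z ⊆ X ∪ D, #z ≤ H → ∃ k ∈ M.G, (∀ a ∈ z, k a = a) ∧ ∀ e ∈ y, k e = g e := by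
    intro z hz hzc
    have hsub : z ⊆ D ∪ (z ∩ X) := fun x hx => (hz hx).elim (fun h => Or.inr ⟨hx, h⟩) Or.inl
    refine stat hM hD hg hgD hyc (hzc.trans_lt hH) ?_ ?_
    · exact (h (z ∩ X) inter_subset_right ((mk_le_mk_of_subset inter_subset_left).trans
        hzc)).base_right.mono Subset.rfl hsub
    · exact (hgy.mono Subset.rfl inter_subset_right).base_right.mono Subset.rfl hsub
  intro a ha hac e he hec
  have hga : g '' a ⊆ D ∪ g '' y := by
    rintro _ ⟨x, hx, rfl⟩
    rcases ha hx with h2 | h2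
    · rw [hgD x h2]
      exact Or.inl h2
    · exact Or.inr (mem_image_of_mem g h2)
  obtain ⟨l, hl, h2, h3⟩ := hgy (g '' a) hga (small_image g hac) e he hec
  have hzc : #(e ∪ (a ∩ D) ∪ l '' e : Set C) < M.χ :=
    small_union (small_union hec (small_inter_left _ hac)) (small_image l hec)
  obtain ⟨k, hk, h4, h5⟩ := hT _ hzc y hy g hg h1 (e ∪ (a ∩ D) ∪ l '' e)
    (union_subset (union_subset (he.trans subset_union_left)
      (inter_subset_right.trans subset_union_right)) (by
        rintro _ ⟨x, hx, rfl⟩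
        exact Or.inr (h3 x hx))) le_rfl
  refine ⟨k⁻¹ * l * k, M.G.mul_mem (M.G.mul_mem (M.G.inv_mem hk) hl) hk, fun x hx => ?_,
    fun x hx => ?_⟩
  · change k⁻¹ (l (k x)) = x
    have h6 : k x = g x := by
      rcases ha hx with h7 | h7
      · rw [h4 x (Or.inl (Or.inr ⟨hx, h7⟩)), hgD x h7]
      · exact h5 x h7
    rw [h6, h2 _ (mem_image_of_mem g hx), ← h6, inv_ap]
  · change k⁻¹ (l (k x)) ∈ D
    rw [h4 x (Or.inl (Or.inl hx)), fix_inv (h4 _ (Or.inr (mem_image_of_mem l hx)))]
    exact h3 x hx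

/-- One more face which is independent from the old ones over a model around its boundary. -/
theorem iref_insert (hM : M.Calc) (hF : Down F) (hwF : w ∉ F) (hA : IFam M A (insert w F))
    {D : Set C} (hD : D ∈ M.S) (hR : IRef M (update A w D) (insert w F))
    (hI : M.Ind D (A w) (iun A F)) : IRef M A (insert w F) := by
  have hup : ∀ v ∈ F, update A w D v = A v := fun v hv => by
    rw [update_of_ne]
    rintro rfl
    exact hwF hv
  have hwI : w ∈ insert w F := Finset.mem_insert_self w F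
  intro x E₀ hE₀ hE₀c
  have hEw : #(E₀ ∩ A w : Set C) < M.χ := small_inter_left _ hE₀c
  by_cases hx : x ∈ w
  · obtain ⟨h, hh, h1, h2⟩ := hM.sym hD hI (E₀ ∩ iun A F) (fun e he => Or.inr he.2)
      (small_inter_left _ hE₀c) (E₀ ∩ A w) inter_subset_right hEw
    obtain ⟨g, hg, h3⟩ := hR x (h '' E₀) (by
      rintro _ ⟨e, he, rfl⟩
      have h4 := hE₀ he
      rw [iun_insert] at h4
      rcases h4 with h4 | ⟨v, hv, hev⟩
      · refine ⟨w, hwI, ?_⟩
        rw [update_self]
        exact h2 e ⟨he, h4⟩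
      · refine ⟨v, Finset.mem_insert_of_mem hv, ?_⟩
        rw [h1 e ⟨he, v, hv, hev⟩, hup v hv]
        exact hev) (small_image h hE₀c)
    refine ⟨g * h, M.G.mul_mem hg hh, fun v hv e he hev => ?_⟩
    rw [Equiv.Perm.mul_apply]
    rcases Finset.mem_insert.1 hv with rfl | hv'
    · have h4 := (h3 v hwI (h e) (mem_image_of_mem h he) (by
        rw [update_self]
        exact h2 e ⟨he, hev⟩)).1
      rw [update_of_ne (Finset.erase_ssubset hx).ne] at h4
      exact ⟨h4, fun h5 => absurd hx h5⟩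
    · have h4 : h e = e := h1 e ⟨he, v, hv', hev⟩
      have h5 := h3 v hv (h e) (mem_image_of_mem h he) (by
        rw [h4, hup v hv']
        exact hev)
      rw [h4, hup _ (hF.2 v hv' _ (Finset.erase_subset x v))] at h5
      rw [h4]
      exact h5
  · obtain ⟨p, hpD, hpc, hp⟩ := hM.based hD hEw
    obtain ⟨g, hg, h1⟩ := hR x ((E₀ ∩ iun A F) ∪ p) (by
      rintro e (⟨-, v, hv, hev⟩ | he)
      · refine ⟨v, Finset.mem_insert_of_mem hv, ?_⟩
        rw [hup v hv]
        exact hev
      · refine ⟨w, hwI, ?_⟩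
        rw [update_self]
        exact hpD he) (small_union (small_inter_left _ hE₀c) hpc)
    have hgv : ∀ v ∈ F, ∀ e ∈ E₀, e ∈ A v → g e ∈ A (v.erase x) ∧ (x ∉ v → g e = e) := by
      intro v hv e he hev
      have h2 := h1 v (Finset.mem_insert_of_mem hv) e (Or.inl ⟨he, v, hv, hev⟩) (by
        rw [hup v hv]
        exact hev)
      rwa [hup _ (hF.2 v hv _ (Finset.erase_subset x v))] at h2
    obtain ⟨k, hk, -, h2, h3⟩ := hp g hg (fun c hc => (h1 w hwI c (Or.inr hc) (by
      rw [update_self]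
      exact hpD hc)).2 hx) (E₀ ∩ iun A F) (small_inter_left _ hE₀c)
      (hI.mono inter_subset_right inter_subset_right) (hI.mono inter_subset_right (by
        rintro _ ⟨e, ⟨he, v, hv, hev⟩, rfl⟩
        exact ⟨_, hF.2 v hv _ (Finset.erase_subset x v), (hgv v hv e he hev).1⟩))
    refine ⟨k, hk, fun v hv e he hev => ?_⟩
    rcases Finset.mem_insert.1 hv with rfl | hv'
    · rw [h2 e ⟨he, hev⟩, Finset.erase_eq_of_notMem hx]
      exact ⟨hev, fun _ => rfl⟩
    · rw [h3 e ⟨he, v, hv', hev⟩]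
      exact hgv v hv' e he hev

/-- Atomic models over families without large faces. -/
theorem exists_top_of_small (hM : M.Calc) (ha : a ∈ s) (hG : ∀ i < s.card, GDI M ι i) {j : ℕ}
    (hj : j + 1 < s.card) (hF : Down F) (hFs : ∀ v ∈ F, v ⊆ s ∧ v.card ≤ j)
    (hA : IFam M A F) (hR : IRef M A F) : ∃ K, M.Atomic K (iun A F) := by
  have hcard : (s.erase a).card = s.card - 1 := Finset.card_erase_of_mem ha
  have hsub : F ⊆ Fa s a := by
    intro v hv
    obtain ⟨h1, h2⟩ := hFs v hv
    refine mem_fa.2 ⟨?_, lt_of_le_of_ne h1 ?_⟩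
    · rintro rfl
      omega
    · rintro rfl
      omega
  have hs : 2 ≤ s.card := by omega
  obtain ⟨B, h1, h2, h3, h4⟩ := exists_filling hM (fun v hv _ => hG v.card
    (Finset.card_lt_card (mem_fa.1 hv).2)) (down_fa ha hs) hF hsub hA hR
  obtain ⟨Q, hQ⟩ := exists_link_top ha hs (hG _ (by omega)) h2 h3
  refine ⟨Q, ?_⟩
  rw [← iun_congr h1]
  exact atomic_descend h2 h3 hF hsub h4 hQ

/-- **Full independence of a family from the independence of its pieces of a fixed size**, for
subfamilies of a given family of faces. -/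
theorem exists_full_core (hM : M.Calc) (hB : Big M) (hU : M.Up) (hσ : σ < M.χ)
    (hFP : FPr M σ) {F₁ : Finset (Finset ι)} (hG : ∀ w ∈ F₁, w.Nonempty → GDI M ι w.card)
    (hH : H < M.χ)
    (hT : ∀ (A : Finset ι → Set C) (F : Finset (Finset ι)), Down F → F ⊆ F₁ →
      IFam M A F → IRef M A F → ∀ ρ < M.χ, M.TmL σ H ρ (iun A F))
    (hK : ∀ (A : Finset ι → Set C) (F : Finset (Finset ι)), Down F → F ⊆ F₁ →
      IFam M A F → IRef M A F → ∃ K, M.Atomic K (iun A F)) :
    ∃ τ < M.χ, ∀ (A : Finset ι → Set C) (F : Finset (Finset ι)), Down F → F ⊆ F₁ →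
      IFam M A F → IRefL M τ A F → IRef M A F := by
  obtain ⟨τ, hτ, hUτ⟩ := hU (max σ H) (max_lt hσ hH)
  refine ⟨τ + τ, add_lt_of_lt M.hχ hτ hτ, fun A F hF hFs hA hR => ?_⟩
  have key : ∀ F', Down F' → F' ⊆ F → IRef M A F' := by
    refine down_induction (p := fun F' => F' ⊆ F → IRef M A F') (fun _ => iref_zero) ?_
    intro F' w hF' hwF' hw ih hsub'
    have hsub : F' ⊆ F := (Finset.subset_insert w F').trans hsub'
    have hwI : w ∈ insert w F' := Finset.mem_insert_self w F'
    have hwF : w ∈ F := hsub' hwI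
    have hRF : IRef M A F' := ih hsub
    have hw0 : w.Nonempty := by
      rw [Finset.nonempty_iff_ne_empty]
      rintro rfl
      exact hwF' hF'.1
    have hdI : Down (insert w F') := by
      refine ⟨Finset.mem_insert_of_mem hF'.1, fun v hv q hq => ?_⟩
      rcases Finset.mem_insert.1 hv with rfl | hv
      · rcases eq_or_ne q v with rfl | hne
        · exact hwI
        · exact Finset.mem_insert_of_mem (hw q (lt_of_le_of_ne hq hne))
      · exact Finset.mem_insert_of_mem (hF'.2 v hv q hq)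
    have hAI : IFam M A (insert w F') := hA.sub hdI hsub'
    have hws : w.ssubsets ⊆ F' := fun v hv => hw v (Finset.mem_ssubsets.1 hv)
    have hbw : ibd A w ⊆ A w := by
      rintro x ⟨q, hq, hx⟩
      exact hA.mono w hwF q hq.1 hx
    -- the hull
    obtain ⟨N, hN⟩ := hG w (hFs hwF) hw0 A w rfl
      ((hA.sub hF' hsub).sub (down_ssubsets hw0) hws) (hRF.mono hws)
    obtain ⟨D, hD, hDw⟩ := exists_atomic_in hN (hA.mem w hwF) hbw
    have hup : ∀ v ∈ F', update A w D v = A v := fun v hv => by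
      rw [update_of_ne]
      rintro rfl
      exact hwF' hv
    obtain ⟨h1, h2⟩ := steps_of (B := update A w D) hM hdI hF' (Finset.subset_insert w F')
      (hA.sub hF' hsub) hRF hup (fun v hv hvF => by
        have hvw : v = w := (Finset.mem_insert.1 hv).resolve_right hvF
        subst hvw
        rw [update_self, ← ibd_congr (A := A) fun q hq => by rw [update_of_ne hq.ne]]
        exact hD)
    have hX : iun (update A w D) (insert w F') = iun A F' ∪ D := by
      rw [iun_insert, update_self, iun_congr hup, union_comm]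
    have hT' := hT _ _ hdI (hsub'.trans hFs) h1 h2
    obtain ⟨K, hK⟩ := hK _ _ hdI (hsub'.trans hFs) h1 h2
    rw [hX] at hT' hK
    have hIL : M.IndL τ D (A w) (iun A F') := (hR.mono hsub').indL hdI hwF' hF' hD.sub hDw
    have hXc : #(iun A F') ≤ M.χ := card_iun fun v hv => (M.S_card (hA.mem v (hsub hv))).le
    have hI : M.Ind D (A w) K := by
      refine hFP D hD.mem (A w) (hA.mem w hwF) K hK.mem hDw (subset_union_right.trans hK.sub)
        fun y hy hyc => ?_
      obtain ⟨g, hg, hgD, hgy⟩ := hB.free hD.mem (hyc.trans_lt hσ) hXc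
      have h3 : M.Ind D y (iun A F') := ind_of_tm hM hD.mem hσ hyc hH hT' hg hgD hgy
        fun z hz hzc => hUτ D hD.mem y z (hyc.trans (le_max_left _ _))
          (hzc.trans (le_max_right _ _)) (hIL.mono hy hz)
      exact hM.sym hD.mem (hK.dom (hM.sym hD.mem h3))
    exact iref_insert hM hF' hwF' hAI hD.mem h2 (hI.mono Subset.rfl
      (subset_union_left.trans hK.sub))
  exact key F hF Finset.Subset.rfl

/-- The same for the families without large faces. -/
theorem exists_full (hM : M.Calc) (hB : Big M) (hU : M.Up) (hσ : σ < M.χ) (hFP : FPr M σ)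
    (hG : ∀ i < s.card, GDI M ι i) {j : ℕ} (hj : j + 1 < s.card) (hH : H < M.χ)
    (hT : ∀ (A : Finset ι → Set C) (F : Finset (Finset ι)), Down F →
      (∀ v ∈ F, v ⊆ s ∧ v.card ≤ j) → IFam M A F → IRef M A F →
        ∀ ρ < M.χ, M.TmL σ H ρ (iun A F)) :
    ∃ τ < M.χ, ∀ (A : Finset ι → Set C) (F : Finset (Finset ι)), Down F →
      (∀ v ∈ F, v ⊆ s ∧ v.card ≤ j) → IFam M A F → IRefL M τ A F → IRef M A F := by
  obtain ⟨a, ha⟩ : s.Nonempty := Finset.card_pos.1 (by omega)
  have hm : ∀ v, v ∈ s.powerset.filter (fun v => v.card ≤ j) ↔ v ⊆ s ∧ v.card ≤ j := fun v => by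
    rw [Finset.mem_filter, Finset.mem_powerset]
  obtain ⟨τ, hτ, h⟩ := exists_full_core (F₁ := s.powerset.filter fun v => v.card ≤ j) hM hB hU
    hσ hFP (fun w hw _ => hG _ (by
      have := ((hm w).1 hw).2
      omega)) hH
    (fun A F hF hFs => hT A F hF fun v hv => (hm v).1 (hFs hv))
    (fun A F hF hFs hA hR => exists_top_of_small hM ha hG hj hF (fun v hv => (hm v).1 (hFs hv))
      hA hR)
  exact ⟨τ, hτ, fun A F hF hFs => h A F hF fun v hv => (hm v).2 (hFs v hv)⟩

/-- **The boundary of one face.** -/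
theorem exists_full_face (hM : M.Calc) (hB : Big M) (hU : M.Up) (hσ : σ < M.χ)
    (hFP : FPr M σ) (hv : v.Nonempty) (hG : ∀ i ≤ v.card, GDI M ι i) (hH : H < M.χ)
    (hT : ∀ (A : Finset ι → Set C) (F : Finset (Finset ι)), Down F → F ⊆ v.ssubsets →
      IFam M A F → IRef M A F → ∀ ρ < M.χ, M.TmL σ H ρ (iun A F)) :
    ∃ τ < M.χ, ∀ A : Finset ι → Set C, IFam M A v.ssubsets → IRefL M τ A v.ssubsets →
      IRef M A v.ssubsets := by
  obtain ⟨τ, hτ, h⟩ := exists_full_core (F₁ := v.ssubsets) hM hB hU hσ hFP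
    (fun w hw _ => hG _ (Finset.card_lt_card (Finset.mem_ssubsets.1 hw)).le) hH hT (by
    intro A F hF hFs hA hR
    obtain ⟨B, h1, h2, h3, h4⟩ := exists_filling hM (fun w hw _ => hG w.card
      (Finset.card_lt_card (Finset.mem_ssubsets.1 hw)).le) (down_ssubsets hv) hF hFs hA hR
    obtain ⟨Q, hQ⟩ := hG v.card le_rfl B v rfl h2 h3
    rw [← iun_ssubsets] at hQ
    refine ⟨Q, ?_⟩
    rw [← iun_congr h1]
    exact atomic_descend h2 h3 hF hFs h4 hQ)
  exact ⟨τ, hτ, fun A hA hR => h A v.ssubsets (down_ssubsets hv) Finset.Subset.rfl hA hR⟩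

end Vale.Agent.P307.R2.H581
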