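import Vale.Agent.P307.R2.H533.GDI
import Vale.Agent.P307.R2.H732.TmL

/-!
Coherent isomorphisms from an independent family of models onto a family which is independent only
for pieces of a fixed size.
-/

universe u v

open Set Cardinal Function

namespace Vale.Agent.P307.R2.H581

open Vale.Agent.P307.R2.H541 Vale.Agent.P307.R2.H541.PG Vale.Agent.P307.R2.H533

open scoped Classical

variable {ι : Type v} {C : Type u} {M : PG C}

variable (M) in
/-- Reflection for the pieces of size `τ` of a family of faces. -/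
def IRefL (τ : Cardinal.{u}) (A : Finset ι → Set C) (F : Finset (Finset ι)) : Prop :=
  ∀ x, ∀ E ⊆ iun A F, #E ≤ τ →
    ∃ g ∈ M.G, ∀ v ∈ F, ∀ e ∈ E, e ∈ A v → g e ∈ A (v.erase x) ∧ (x ∉ v → g e = e)

variable (M) in
/-- Independence of sets of size `σ` from models is decided by the pieces of a fixed size. -/
def UpM : Prop := ∀ σ < M.χ, ∃ τ < M.χ, ∀ P ∈ M.S, ∀ N ∈ M.S, P ⊆ N → ∀ E : Set C, #E ≤ σ →
  M.IndL τ P N E → M.Ind P N E

variable (M) in
/-- Independence of models is decided by the pieces of size `σ` of one of them. -/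
def FPr (σ : Cardinal.{u}) : Prop := ∀ P ∈ M.S, ∀ N ∈ M.S, ∀ Q ∈ M.S, P ⊆ N → P ⊆ Q →
  (∀ y ⊆ N, #y ≤ σ → M.Ind P y Q) → M.Ind P N Q

variable {A A' : Finset ι → Set C} {F F' : Finset (Finset ι)} {r s v w : Finset ι}
  {σ τ κ β : Cardinal.{u}}

theorem IRef.irefL (h : IRef M A F) (hτ : τ < M.χ) : IRefL M τ A F :=
  fun x E hE hEc => h x E hE (hEc.trans_lt hτ)

namespace IRefL

theorem level {τ' : Cardinal.{u}} (h : IRefL M τ A F) (hτ : τ' ≤ τ) : IRefL M τ' A F :=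
  fun x E hE hEc => h x E hE (hEc.trans hτ)

theorem mono (h : IRefL M τ A F) (hF : F' ⊆ F) : IRefL M τ A F' := by
  intro x E hE hEc
  obtain ⟨g, hg, h1⟩ := h x E (hE.trans (iun_mono hF)) hEc
  exact ⟨g, hg, fun v hv => h1 v (hF hv)⟩

/-- Reflection in several directions. -/
theorem many (hF : Down F) (h : IRefL M τ A F) (T : Finset ι) :
    ∀ E ⊆ iun A F, #E ≤ τ → ∃ g ∈ M.G, ∀ v ∈ F, ∀ e ∈ E, e ∈ A v →
      g e ∈ A (v \ T) ∧ (Disjoint v T → g e = e) := by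
  induction T using Finset.induction_on with
  | empty =>
    intro E hE hEc
    exact ⟨1, M.G.one_mem, fun v hv e he hev => ⟨by rwa [Finset.sdiff_empty], fun _ => rfl⟩⟩
  | insert y T hy ih =>
    intro E hE hEc
    obtain ⟨g, hg, h1⟩ := ih E hE hEc
    obtain ⟨k, hk, h2⟩ := h y (g '' E) (by
      rintro _ ⟨e, he, rfl⟩
      obtain ⟨v, hv, hev⟩ := hE he
      exact ⟨v \ T, hF.2 v hv _ Finset.sdiff_subset, (h1 v hv e he hev).1⟩)
      (mk_image_le.trans hEc)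
    refine ⟨k * g, M.G.mul_mem hk hg, fun v hv e he hev => ?_⟩
    have h3 := h1 v hv e he hev
    have h4 := h2 (v \ T) (hF.2 v hv _ Finset.sdiff_subset) (g e) (mem_image_of_mem g he) h3.1
    constructor
    · have h5 : (v \ T).erase y = v \ insert y T := by
        ext z
        simp only [Finset.mem_erase, Finset.mem_sdiff, Finset.mem_insert, not_or]
        tauto
      rw [← h5]
      exact h4.1
    · intro hd
      rw [Finset.disjoint_insert_right] at hd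
      rw [Equiv.Perm.mul_apply, h4.2 fun h6 => hd.1 (Finset.mem_sdiff.1 h6).1, h3.2 hd.2]

/-- Reflection towards a set of directions. -/
theorem toward (hF : Down F) (h : IRefL M τ A F) (w : Finset ι) {E : Set C} (hE : E ⊆ iun A F)
    (hEc : #E ≤ τ) : ∃ g ∈ M.G, ∀ v ∈ F, ∀ e ∈ E, e ∈ A v →
      g e ∈ A (v ∩ w) ∧ (v ⊆ w → g e = e) := by
  obtain ⟨g, hg, h1⟩ := h.many hF (F.biUnion id \ w) E hE hEc
  refine ⟨g, hg, fun v hv e he hev => ?_⟩
  have h2 := h1 v hv e he hev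
  have h3 : v \ (F.biUnion id \ w) = v ∩ w := by
    ext z
    rw [Finset.mem_sdiff, Finset.mem_sdiff, Finset.mem_inter, not_and, not_not]
    constructor
    · rintro ⟨h4, h5⟩
      exact ⟨h4, h5 (Finset.mem_biUnion.2 ⟨v, hv, h4⟩)⟩
    · rintro ⟨h4, h5⟩
      exact ⟨h4, fun _ => h5⟩
  rw [h3] at h2
  refine ⟨h2.1, fun h4 => h2.2 ?_⟩
  exact Finset.disjoint_left.2 fun z hz hz' => (Finset.mem_sdiff.1 hz').2 (h4 hz)

/-- A new face is independent from the old ones over every set between its boundary and itself. -/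
theorem indL (hF : Down (insert w F)) (hwF : w ∉ F) (hFd : Down F)
    (h : IRefL M (τ + τ) A (insert w F)) {D : Set C} (hD : ibd A w ⊆ D) (hDw : D ⊆ A w) :
    M.IndL τ D (A w) (iun A F) := by
  intro a ha hac b hb hbc
  have ha' : a ⊆ A w := fun x hx => (ha hx).elim (fun h => hDw h) id
  obtain ⟨g, hg, h1⟩ := h.toward hF w (E := a ∪ b) (union_subset
    (fun x hx => ⟨w, Finset.mem_insert_self w F, ha' hx⟩)
    (hb.trans (iun_mono (Finset.subset_insert w F)))) ((mk_union_le _ _).trans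
      (add_le_add hac hbc))
  refine ⟨g, hg, fun x hx => (h1 w (Finset.mem_insert_self w F) x (Or.inl hx) (ha' hx)).2
    (Finset.Subset.refl w), fun x hx => ?_⟩
  obtain ⟨v, hv, hxv⟩ := hb hx
  refine hD ⟨v ∩ w, ?_, (h1 v (Finset.mem_insert_of_mem hv) x (Or.inr hx) hxv).1⟩
  refine lt_of_le_of_ne Finset.inter_subset_right fun h3 => hwF (hFd.2 v hv w ?_)
  rw [← h3]
  exact Finset.inter_subset_left

end IRefL

/-- Isolation of a piece, and the image of a set which is reflected over the isolating piece. -/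
theorem fix_of_isol {B X a y : Set C} (h : M.Isol B X a) {k : Equiv.Perm C} (hk : k ∈ M.G)
    (hkB : ∀ b ∈ B, k b = b) (hyc : #y < M.χ) (hky : k '' y ⊆ X) :
    ∃ g ∈ M.G, (∀ x ∈ a, g x = x) ∧ ∀ x ∈ y, g x = k x := by
  obtain ⟨l, hl, h1, h2⟩ := h k hk hkB (k '' y) hky (small_image k hyc)
  refine ⟨l⁻¹ * k, M.G.mul_mem (M.G.inv_mem hl) hk, fun x hx => ?_, fun x hx => ?_⟩
  · rw [Equiv.Perm.mul_apply, ← h2 x hx, inv_ap]
  · rw [Equiv.Perm.mul_apply]
    exact fix_inv (h1 _ (mem_image_of_mem k hx))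

/-- **A new face is independent from a model around the old faces.** -/
theorem exists_ind_face (hM : M.Calc) (hU : M.Up) (hUM : UpM M) (hσ : σ < M.χ)
    (hFP : FPr M σ) : ∃ κ < M.χ, ∀ β < M.χ, ∃ τ < M.χ, ∀ (A : Finset ι → Set C)
    (F : Finset (Finset ι)) (w : Finset ι), Down F → Down (insert w F) → w ∉ F →
    A w ∈ M.S → IRefL M τ A (insert w F) → ∀ D ∈ M.S, ibd A w ⊆ D → D ⊆ A w → ∀ Q ∈ M.S,
    D ⊆ Q → (∀ E ⊆ Q, #E ≤ κ → ∃ B ⊆ iun A F ∪ D, #B ≤ β ∧ M.Isol B (iun A F ∪ D) E) →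
    M.Ind D (A w) Q := by
  obtain ⟨κ, hκ, h1⟩ := hUM σ hσ
  refine ⟨κ, hκ, fun β hβ => ?_⟩
  obtain ⟨τ, hτ, h2⟩ := hU.exists_sym hM (σ := max β κ) (max_lt hβ hκ)
  refine ⟨τ + τ, add_lt_of_lt M.hχ hτ hτ, ?_⟩
  intro A F w hF hFw hwF hAw hR D hD hbD hDw Q hQ hDQ hB
  refine hFP D hD (A w) hAw Q hQ hDw hDQ fun y hy hyc => ?_
  refine hM.sym hD (h1 D hD Q hQ hDQ y hyc ?_)
  have h3 := h2 D hD _ _ (hR.indL hFw hwF hF hbD hDw)
  intro a ha hac z hz hzc
  have ha' : a ⊆ Q := fun x hx => (ha hx).elim (fun h => hDQ h) id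
  obtain ⟨B, hB1, hB2, hB3⟩ := hB a ha' hac
  obtain ⟨k, hk, h4, h5⟩ := h3 B (by rwa [union_comm]) (hB2.trans (le_max_left _ _)) z
    (hz.trans hy) (hzc.trans (le_max_right _ _))
  obtain ⟨g, hg, h6, h7⟩ := fix_of_isol hB3 hk h4 (hzc.trans_lt hκ) (by
    rintro _ ⟨x, hx, rfl⟩
    exact Or.inr (h5 x hx))
  exact ⟨g, hg, h6, fun x hx => by
    rw [h7 x hx]
    exact h5 x hx⟩

/-- Atomic models have uniform bounds for the isolating sets. -/
theorem exists_bound (h0 : ℵ₀ < M.χ) {N X : Set C} (hN : M.Atomic N X) (hκ : κ < M.χ) :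
    ∃ β < M.χ, ∀ E ⊆ N, #E ≤ κ → ∃ B ⊆ X, #B ≤ β ∧ M.Isol B X E := by
  by_contra hcon
  push Not at hcon
  obtain ⟨Y, -, hYc, hYN⟩ := M.cof N (M.S_card hN.mem).le
  choose E hE1 hE2 hE3 using fun n => hcon #(Y n) (hYc n)
  have hcard : ∀ (W : ℕ → Set C) (ν : Cardinal.{u}), ν < M.χ → (∀ n, #(W n) ≤ ν) →
      #(⋃ n, W n) < M.χ := by
    intro W ν hν hW
    have h1 : (⋃ n, W n) = ⋃ n : ULift.{u} ℕ, W n.down := by
      ext x
      simp
    rw [h1]
    refine mk_iUnion_le_sum_mk.trans_lt ((sum_le_sum (fun n : ULift.{u} ℕ => #(W n.down))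
      (fun _ => ν) fun n => hW n.down).trans_lt ?_)
    rw [sum_const, lift_id, lift_id, mk_uLift, mk_nat, lift_aleph0]
    exact mul_lt_of_lt M.hχ h0 hν
  have hEc : #(⋃ n, E n) < M.χ := hcard E κ hκ hE2
  obtain ⟨B, hB, hBc, hiso⟩ := hN.iso _ (iUnion_subset hE1) hEc
  have hex : ∃ n, #B ≤ #(Y n) := by
    by_contra hcon'
    push Not at hcon'
    have h2 := hcard Y #B hBc fun n => (hcon' n).le
    rw [hYN] at h2
    exact h2.ne (M.S_card hN.mem)
  obtain ⟨n, hn⟩ := hex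
  exact hE3 n B hB hn (hiso.subset (subset_iUnion E n))

/-- Conjugation of isolation. -/
theorem isol_conj {B X E : Set C} (h : M.Isol B X E) {q : Equiv.Perm C} (hq : q ∈ M.G) :
    M.Isol (q '' B) (q '' X) (q '' E) := by
  intro g hg hgB D hD hDc
  have hD' : (q⁻¹ : Equiv.Perm C) '' D ⊆ X := by
    rintro _ ⟨d, hd, rfl⟩
    obtain ⟨x, hx, rfl⟩ := hD hd
    rw [inv_ap]
    exact hx
  obtain ⟨l, hl, h1, h2⟩ := h (q⁻¹ * g * q) (M.G.mul_mem (M.G.mul_mem (M.G.inv_mem hq) hg) hq)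
    (fun b hb => by
      change q⁻¹ (g (q b)) = b
      rw [hgB _ (mem_image_of_mem q hb), inv_ap]) _ hD' (small_image _ hDc)
  refine ⟨q * l * q⁻¹, M.G.mul_mem (M.G.mul_mem hq hl) (M.G.inv_mem hq), fun d hd => ?_, ?_⟩
  · change q (l (q⁻¹ d)) = d
    rw [h1 _ (mem_image_of_mem _ hd), ap_inv]
  · rintro _ ⟨e, he, rfl⟩
    change q (l (q⁻¹ (q e))) = g (q e)
    rw [inv_ap, h2 e he]
    change q (q⁻¹ (g (q e))) = g (q e)
    rw [ap_inv]

/-- Two pieces, independent over a model on both sides. -/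
theorem exists_piece (hM : M.Calc) {D X E Z : Set C} {f : C → C} (hD : D ∈ M.S)
    (hf : M.LE f (X ∪ D)) {k : Equiv.Perm C} (hk : k ∈ M.G) (hkD : ∀ d ∈ D, k d = f d)
    (hE : #E < M.χ) (hkE : ∀ e ∈ E, k e = f e) (hZ : Z ⊆ X) (hZc : #Z < M.χ)
    (h1 : M.Ind D E Z) (h2 : M.Ind (k '' D) (k '' E) (f '' Z)) :
    ∃ g ∈ M.G, (∀ a ∈ Z, g a = f a) ∧ ∀ e ∈ E, g e = f e := by
  obtain ⟨p, hpD, hpc, hp⟩ := hM.based hD hE
  obtain ⟨g, hg, h3⟩ := hf (Z ∪ p) (union_subset_union hZ hpD) (small_union hZc hpc)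
  have hcomp : ((k⁻¹ : Equiv.Perm C) ∘ k) = id := by
    funext a
    exact inv_ap k a
  have h4 := h2.smul (M.G.inv_mem hk)
  rw [← image_comp, hcomp, image_id, ← image_comp, hcomp, image_id] at h4
  obtain ⟨l, hl, h5, h6, h7⟩ := hp (k⁻¹ * g) (M.G.mul_mem (M.G.inv_mem hk) hg) (fun c hc => by
    rw [Equiv.Perm.mul_apply, h3 c (Or.inr hc), ← hkD c (hpD hc), inv_ap]) Z hZc h1 (by
    refine h4.mono Subset.rfl ?_
    rintro _ ⟨z, hz, rfl⟩
    refine ⟨f z, mem_image_of_mem f hz, ?_⟩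
    rw [Equiv.Perm.mul_apply, h3 z (Or.inl hz)])
  refine ⟨k * l, M.G.mul_mem hk hl, fun a ha => ?_, fun e he => ?_⟩
  · rw [Equiv.Perm.mul_apply, h7 a ha, Equiv.Perm.mul_apply, ap_inv, h3 a (Or.inl ha)]
  · rw [Equiv.Perm.mul_apply, h6 e he, hkE e he]

/-- The hull of the boundary of a new face. -/
theorem le_hull (hFd : Down F) (hR : IRef M A F) (hwF : w ∉ F) (hw : ∀ r, r ⊂ w → r ∈ F)
    {D : Set C} (hD : M.Atomic D (ibd A w)) {f : C → C} (hf : M.LE f (iun A F))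
    {k : Equiv.Perm C} (hk : k ∈ M.G) (hkD : ∀ d ∈ D, k d = f d) : M.LE f (iun A F ∪ D) := by
  intro E₀ hE₀ hE₀c
  have hEN : #(E₀ ∩ D : Set C) < M.χ := small_inter_left _ hE₀c
  obtain ⟨b, hb, hbc, hiso'⟩ := hD.iso (E₀ ∩ D) inter_subset_right hEN
  have hiso := hiso'.lift (hR.tv hFd hwF hw) hb hbc
  have hbu : b ⊆ iun A F := hb.trans (ibd_sub_iun hw)
  obtain ⟨g, hg, h1⟩ := hf ((E₀ ∩ iun A F) ∪ b) (union_subset inter_subset_right hbu)
    (small_union (small_inter_left _ hE₀c) hbc)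
  obtain ⟨l, hl, h4, h5⟩ := hiso (g⁻¹ * k) (M.G.mul_mem (M.G.inv_mem hg) hk)
    (fun x hx => by
      rw [Equiv.Perm.mul_apply, hkD x (hD.sub (hb hx)), ← h1 x (Or.inr hx), inv_ap])
    (E₀ ∩ iun A F) inter_subset_right (small_inter_left _ hE₀c)
  refine ⟨g * l, M.G.mul_mem hg hl, fun a ha => ?_⟩
  rcases hE₀ ha with h6 | h6
  · rw [Equiv.Perm.mul_apply, h4 a ⟨ha, h6⟩, h1 a (Or.inl ⟨ha, h6⟩)]
  · rw [Equiv.Perm.mul_apply, h5 a ⟨ha, h6⟩, Equiv.Perm.mul_apply, ap_inv, hkD a h6]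

/-- The image of the boundary of a face. -/
theorem ibd_image {f : C → C} {F : Finset (Finset ι)} (hA : ∀ v ∈ F, ∃ g ∈ M.G,
    (∀ a ∈ A v, g a = f a) ∧ g '' A v = A' v) (hw : ∀ r, r ⊂ w → r ∈ F) :
    f '' ibd A w = ibd A' w := by
  ext x
  constructor
  · rintro ⟨a, ⟨r, hr, ha⟩, rfl⟩
    obtain ⟨g, -, h1, h2⟩ := hA r (hw r hr)
    refine ⟨r, hr, ?_⟩
    rw [← h2, ← h1 a ha]
    exact mem_image_of_mem g ha
  · rintro ⟨r, hr, hx⟩
    obtain ⟨g, -, h1, h2⟩ := hA r (hw r hr)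
    rw [← h2] at hx
    obtain ⟨a, ha, rfl⟩ := hx
    exact ⟨a, ⟨r, hr, ha⟩, (h1 a ha).symm⟩

theorem iun_image {f : C → C} {F : Finset (Finset ι)} (hA : ∀ v ∈ F, ∃ g ∈ M.G,
    (∀ a ∈ A v, g a = f a) ∧ g '' A v = A' v) : f '' iun A F = iun A' F := by
  ext x
  constructor
  · rintro ⟨a, ⟨r, hr, ha⟩, rfl⟩
    obtain ⟨g, -, h1, h2⟩ := hA r hr
    refine ⟨r, hr, ?_⟩
    rw [← h2, ← h1 a ha]
    exact mem_image_of_mem g ha
  · rintro ⟨r, hr, hx⟩
    obtain ⟨g, -, h1, h2⟩ := hA r hr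
    rw [← h2] at hx
    obtain ⟨a, ha, rfl⟩ := hx
    exact ⟨a, ⟨r, hr, ha⟩, (h1 a ha).symm⟩

/-- **One more face.** The level is fixed before the other family and the isomorphisms. -/
theorem exists_le_step (hM : M.Calc) (hU : M.Up) (hUM : UpM M) (h0 : ℵ₀ < M.χ)
    (hls : ∀ X : Set C, #X ≤ M.χ → ∃ N ∈ M.S, X ⊆ N) (hσ : σ < M.χ) (hFP : FPr M σ)
    (hA : IFam M A (insert w F)) (hR : IRef M A (insert w F)) (hF : Down F) (hwF : w ∉ F)
    {D Q : Set C} (hD : M.Atomic D (ibd A w)) (hDw : D ⊆ A w)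
    (hQ : M.Atomic Q (iun A F ∪ D)) : ∃ τ < M.χ, ∀ (A' : Finset ι → Set C) (f : C → C),
      IFam M A' (insert w F) → IRefL M τ A' (insert w F) →
      (∀ v ∈ insert w F, ∃ g ∈ M.G, (∀ a ∈ A v, g a = f a) ∧ g '' A v = A' v) →
      M.LE f (iun A F) → M.LE f (iun A (insert w F)) := by
  obtain ⟨κ, hκ, h1⟩ := exists_ind_face (ι := ι) hM hU hUM hσ hFP
  obtain ⟨β, hβ, h2⟩ := exists_bound h0 hQ hκ
  obtain ⟨τ, hτ, h3⟩ := h1 β hβ
  refine ⟨τ, hτ, fun A' f hA' hR' hf hLE => ?_⟩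
  have hwI : w ∈ insert w F := Finset.mem_insert_self w F
  have hw : ∀ r, r ⊂ w → r ∈ F := fun r hr => by
    have h4 := hA.down.2 w hwI r hr.1
    rw [Finset.mem_insert] at h4
    exact h4.resolve_left hr.ne
  have hsub : F ⊆ insert w F := Finset.subset_insert w F
  have hfF : ∀ v ∈ F, ∃ g ∈ M.G, (∀ a ∈ A v, g a = f a) ∧ g '' A v = A' v :=
    fun v hv => hf v (hsub hv)
  obtain ⟨gw, hgw, hw1, hw2⟩ := hf w hwI
  have hgD : ∀ d ∈ D, gw d = f d := fun d hd => hw1 d (hDw hd)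
  have hLD : M.LE f (iun A F ∪ D) := le_hull hF (hR.mono hsub) hwF hw hD hLE hgw hgD
  obtain ⟨N', hN', hfN⟩ := hls (f '' (iun A F ∪ D)) (mk_image_le.trans
    ((mk_le_mk_of_subset hQ.sub).trans (M.S_card hQ.mem).le))
  obtain ⟨q, hq, hqf, -⟩ := hQ.exists_embed hLD hN' fun x hx => hfN (mem_image_of_mem f hx)
  have hqF : q '' iun A F = iun A' F := by
    rw [← iun_image hfF]
    exact image_congr fun a ha => hqf a (Or.inl ha)
  have hqD : q '' D = gw '' D := image_congr fun a ha => by rw [hqf a (Or.inr ha), hgD a ha]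
  have hbD : ibd A' w ⊆ gw '' D := by
    rw [← ibd_image hfF hw]
    rintro _ ⟨a, ha, rfl⟩
    exact ⟨a, hD.sub ha, hgD a (hD.sub ha)⟩
  have h4 : M.Ind (gw '' D) (A' w) (q '' Q) := by
    refine h3 A' F w hF hA'.down hwF (hA'.mem w hwI) hR' (gw '' D) (M.S_inv hgw hD.mem) hbD
      ?_ (q '' Q) (M.S_inv hq hQ.mem) ?_ fun E hE hEc => ?_
    · rw [← hw2]
      exact image_mono hDw
    · rw [← hqD]
      exact image_mono (subset_union_right.trans hQ.sub)
    · obtain ⟨B, hB1, hB2, hB3⟩ := h2 ((q⁻¹ : Equiv.Perm C) '' E) (by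
        rintro _ ⟨e, he, rfl⟩
        obtain ⟨x, hx, rfl⟩ := hE he
        rw [inv_ap]
        exact hx) (mk_image_le.trans hEc)
      have h5 := isol_conj hB3 hq
      have h6 : q '' ((q⁻¹ : Equiv.Perm C) '' E) = E := by
        rw [← image_comp]
        have : (q ∘ (q⁻¹ : Equiv.Perm C)) = id := by
          funext x
          exact ap_inv q x
        rw [this, image_id]
      have h7 : q '' (iun A F ∪ D) = iun A' F ∪ gw '' D := by
        rw [image_union, hqF, hqD]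
      rw [h6, h7] at h5
      refine ⟨q '' B, ?_, mk_image_le.trans hB2, h5⟩
      rw [← h7]
      exact image_mono hB1
  have h5 : M.Ind D (A w) (iun A F) := ind_hull hA hR hwI hF hsub hwF hD.sub hDw
  intro E₀ hE₀ hE₀c
  obtain ⟨g, hg, h6, h7⟩ := exists_piece hM (X := iun A F) (E := E₀ ∩ A w) (Z := E₀ ∩ iun A F)
    hD.mem hLD hgw hgD (small_inter_left _ hE₀c) (fun e he => hw1 e he.2) inter_subset_right
    (small_inter_left _ hE₀c) (h5.mono inter_subset_right inter_subset_right) (by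
      refine h4.mono ?_ ?_
      · rw [← hw2]
        exact image_mono inter_subset_right
      · rintro _ ⟨x, hx, rfl⟩
        exact ⟨x, hQ.sub (Or.inl hx.2), hqf x (Or.inl hx.2)⟩)
  refine ⟨g, hg, fun a ha => ?_⟩
  have h8 := hE₀ ha
  rw [iun_insert] at h8
  rcases h8 with h8 | h8
  · exact h7 a ⟨ha, h8⟩
  · exact h6 a ⟨ha, h8⟩

/-- The last face: a map which preserves only the types of the pieces of a fixed size. -/
theorem exists_lel_step (hM : M.Calc) (hU : M.Up) (hσ : σ < M.χ)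
    (hA : IFam M A (insert w F)) (hR : IRef M A (insert w F)) (hF : Down F) (hwF : w ∉ F)
    {D : Set C} (hD : M.Atomic D (ibd A w)) (hDw : D ⊆ A w) :
    ∃ τ < M.χ, ∀ (A' : Finset ι → Set C) (f : C → C),
      IFam M A' (insert w F) → IRefL M τ A' (insert w F) →
      (∀ v ∈ insert w F, ∃ g ∈ M.G, (∀ a ∈ A v, g a = f a) ∧ g '' A v = A' v) →
      M.LE f (iun A F) → M.LEL σ f (iun A (insert w F)) := by
  obtain ⟨τ, hτ, h1⟩ := hU σ hσ
  refine ⟨τ + τ, add_lt_of_lt M.hχ hτ hτ, fun A' f hA' hR' hf hLE => ?_⟩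
  have hwI : w ∈ insert w F := Finset.mem_insert_self w F
  have hw : ∀ r, r ⊂ w → r ∈ F := fun r hr => by
    have h4 := hA.down.2 w hwI r hr.1
    rw [Finset.mem_insert] at h4
    exact h4.resolve_left hr.ne
  have hsub : F ⊆ insert w F := Finset.subset_insert w F
  have hfF : ∀ v ∈ F, ∃ g ∈ M.G, (∀ a ∈ A v, g a = f a) ∧ g '' A v = A' v :=
    fun v hv => hf v (hsub hv)
  obtain ⟨gw, hgw, hw1, hw2⟩ := hf w hwI
  have hgD : ∀ d ∈ D, gw d = f d := fun d hd => hw1 d (hDw hd)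
  have hLD : M.LE f (iun A F ∪ D) := le_hull hF (hR.mono hsub) hwF hw hD hLE hgw hgD
  have hbD : ibd A' w ⊆ gw '' D := by
    rw [← ibd_image hfF hw]
    rintro _ ⟨a, ha, rfl⟩
    exact ⟨a, hD.sub ha, hgD a (hD.sub ha)⟩
  have h4 : M.IndL τ (gw '' D) (A' w) (iun A' F) := by
    refine hR'.indL hA'.down hwF hF hbD ?_
    rw [← hw2]
    exact image_mono hDw
  have h5 : M.Ind D (A w) (iun A F) := ind_hull hA hR hwI hF hsub hwF hD.sub hDw
  intro E₀ hE₀ hE₀σ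
  have hE₀c : #E₀ < M.χ := hE₀σ.trans_lt hσ
  have hc : ∀ {Y : Set C}, #(E₀ ∩ Y : Set C) ≤ σ := fun {Y} =>
    (mk_le_mk_of_subset inter_subset_left).trans hE₀σ
  obtain ⟨g, hg, h6, h7⟩ := exists_piece hM (X := iun A F) (E := E₀ ∩ A w) (Z := E₀ ∩ iun A F)
    hD.mem hLD hgw hgD (small_inter_left _ hE₀c) (fun e he => hw1 e he.2) inter_subset_right
    (small_inter_left _ hE₀c) (h5.mono inter_subset_right inter_subset_right) (by
      refine h1 _ (M.S_inv hgw hD.mem) _ _ (mk_image_le.trans hc) (mk_image_le.trans hc)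
        (h4.mono ?_ ?_)
      · rw [← hw2]
        exact image_mono inter_subset_right
      · rw [← iun_image hfF]
        exact image_mono inter_subset_right)
  refine ⟨g, hg, fun a ha => ?_⟩
  have h8 := hE₀ ha
  rw [iun_insert] at h8
  rcases h8 with h8 | h8
  · exact h7 a ⟨ha, h8⟩
  · exact h6 a ⟨ha, h8⟩

end Vale.Agent.P307.R2.H581
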