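import Vale.Agent.P307.R2.H581.Last
import Vale.Agent.P307.R2.H480.Up

/-!
Small bases with a bound for their sizes, for the saturated member.
-/

set_option linter.unusedSectionVars false

universe u

open FirstOrder Cardinal Set

namespace Vale.Agent.P307.R2.H581

open Vale.Agent.P307 Vale.Agent.P307.H304 Vale.Agent.P307.R2.H287 Vale.Agent.P307.R2.H1
  Vale.Agent.P307.R2.H971 Vale.Agent.P307.R2.H804 Vale.Agent.P307.R2.H541
  Language.Structure Language.Substructure

variable {L : Language.{u, u}} {K : AEC L} {ℓ θ : Cardinal.{u}}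
  {κf α : Cardinal.{u} → Cardinal.{u}} {C : Type u} [L.Structure C]

section

variable (h₀ : BasePt K ℓ κf α θ) (hK : K.IsLS ℓ)
  (hunb : ∀ ν, ν < κf ν ∧ K.CategoricalIn (κf ν)) (hst : Stab K ℓ α (H287.thr κf))
  (hCm : K.mem C) (hs : Sat K θ C) (hCc : #C = Order.succ θ)

include h₀ hK hunb hst hCm hs hCc

/-- Small bases, with a bound for their sizes. -/
theorem pg_basL : BasL (pg h₀ hK hunb hst hCm hs hCc) := by
  intro σ hσ
  change σ < θ at hσ
  have hθ := aleph0_le_pt h₀ hK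
  obtain ⟨ν, μ, ρ, h1, h2, hl⟩ := exists_lvl h₀ hσ
  have hμ0 : ℵ₀ ≤ μ := hl.hμ hK
  refine ⟨Order.succ (opB κf μ) * σ, mul_lt_of_lt hθ (hl.opB.trans_lt hl.lt) hσ, ?_⟩
  rintro _ ⟨D, hD, hDc, rfl⟩ E hEσ
  have hE : #E < θ := hEσ.trans_lt hσ
  have hEμ : #E ≤ μ := (hEσ.trans h1).trans hl.νμ
  have hop : opB κf μ < θ := (Order.lt_succ _).trans_le (hl.opB.trans hl.lt.le)
  have hR := refl_big h₀ hK hunb hl D hD hDc
  obtain ⟨a, ha, hconv⟩ := ind_empty h₀ hK hunb hl D hD hDc hEμ (fun e : E => (e : C))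
    (D := (D : Set C)) Subset.rfl hR
  rw [union_empty] at hconv
  refine ⟨range fun q : SuccTy (opB κf μ) × E => a q.1 q.2, ?_, ?_, ?_⟩
  · rintro _ ⟨q, rfl⟩
    exact ha _ _
  · refine mk_range_le.trans ?_
    rw [mk_prod, lift_id, lift_id, mk_succTy]
    exact mul_le_mul_right hEσ _
  · rintro g ⟨e, he⟩ hgp Z hZ hI hI'
    have hgZ : #(g '' Z) < θ := mk_image_le.trans_lt hZ
    obtain ⟨N1, hN1, hN1c, hDN1, hZN1, hc1⟩ := conv_of_pg h₀ hK hunb hst hCm hs hCc hD hDc hE hZ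
      hI hμ0 hEμ hop ha hconv
    obtain ⟨N2, hN2, hN2c, hDN2, hZN2, hc2⟩ := conv_of_pg h₀ hK hunb hst hCm hs hCc hD hDc hE hgZ
      hI' hμ0 hEμ hop ha hconv
    -- the image of the first
    have hN1' : K.le (N1.map e.toHom) := K.le_iso e N1 hN1
    have hN1c' : #(N1.map e.toHom : L.Substructure C) = θ := by
      rw [← hN1c]
      exact mk_image_eq e.injective
    have hc1' : Conv L μ a (fun x : E => e x) ((N1.map e.toHom : L.Substructure C) : Set C) := by
      have h3 := hc1.equiv hμ0 hEμ e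
      have h4 : (fun (x : SuccTy (opB κf μ)) (i : E) => e (a x i)) = a := by
        funext x i
        rw [he]
        exact hgp _ ⟨(x, i), rfl⟩
      rw [h4] at h3
      exact h3.mono (image_mono subset_union_right)
    -- a common extension
    obtain ⟨N4, hN4, hN4A, hN4c⟩ := exists_sub_card hK h₀.pt.lt.le hCm
      ((Order.le_succ θ).trans hCc.ge) ((N2 : Set C) ∪ (N1.map e.toHom : L.Substructure C))
      ((mk_union_le _ _).trans (add_le_of_le hθ hN2c.le hN1c'.le))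
    have hDN4 : (D : Set C) ⊆ N4 := fun x hx => hN4A (Or.inl (hDN2 hx))
    obtain ⟨r, ⟨a', h5, h6⟩, h7⟩ := exists_free h₀ hK hunb hl hs N4 hN4 hN4c hEμ
      (fun x : E => (x : C)) hDN4 hR
    have h8 : Conv L μ a r ((D : Set C) ∪ N4) := by
      refine Conv.key hμ0 (hl.μρ hunb) hEμ ?_ ?_ hR ha h5 (hconv.congr ?_) h6
      · rw [mk_succTy]
        exact hl.opB
      · rw [mk_succTy]
        exact hl.opB
      · intro ζ y hζ hy
        exact (h7 ζ y hζ hy).symm
    obtain ⟨g1, hg1, hg1'⟩ := exists_aut h₀ hK hunb hl hCm hs hCc N2 hN2 hN2c (hEσ.trans h1) r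
      (fun x : E => (x : C)) (by
      intro ζ y hζ hy
      obtain ⟨x1, hx1⟩ := h8 ζ y hζ fun z => Or.inr (hN4A (Or.inl (hy z)))
      obtain ⟨x2, hx2⟩ := hc2 ζ y hζ fun z => Or.inr (hy z)
      exact (hx1 _ (le_max_left x1 x2)).symm.trans (hx2 _ (le_max_right x1 x2)))
    obtain ⟨g2, hg2, hg2'⟩ := exists_aut h₀ hK hunb hl hCm hs hCc (N1.map e.toHom) hN1' hN1c' (hEσ.trans h1) r
      (fun x : E => e x) (by
      intro ζ y hζ hy
      obtain ⟨x1, hx1⟩ := h8 ζ y hζ fun z => Or.inr (hN4A (Or.inr (hy z)))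
      obtain ⟨x2, hx2⟩ := hc1' ζ y hζ fun z => hy z
      exact (hx1 _ (le_max_left x1 x2)).symm.trans (hx2 _ (le_max_right x1 x2)))
    have hinv : ∀ x y, g2 x = y → g2.symm y = x := by
      rintro x _ rfl
      exact Language.Equiv.symm_apply_apply g2 x
    refine ⟨((g1.comp g2.symm).comp e).toEquiv, mem_autG _, ?_, ?_, ?_⟩
    · intro x hx
      change g1 (g2.symm (e x)) = x
      have h9 : e x = x := by
        rw [he]
        exact hgp x hx
      have hxD : x ∈ D := by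
        obtain ⟨q, rfl⟩ := hx
        exact ha _ _
      have h10 : g2 x = x := hg2 x ⟨x, hDN1 hxD, h9⟩
      rw [h9, hinv x x h10, hg1 x (hDN2 hxD)]
    · intro x hx
      change g1 (g2.symm (e x)) = x
      rw [hinv (r ⟨x, hx⟩) (e x) (hg2' ⟨x, hx⟩), hg1' ⟨x, hx⟩]
    · intro x hx
      change g1 (g2.symm (e x)) = g x
      have h9 : e x = g x := he x
      have h10 : g2 (g x) = g x := hg2 _ ⟨x, hZN1 hx, h9⟩
      rw [h9, hinv _ _ h10, hg1 _ (hZN2 ⟨x, hx, rfl⟩)]

end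

end Vale.Agent.P307.R2.H581
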