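import Vale.Agent.P307.R2.H581.Full
import Vale.Agent.P307.R2.H83.Scaf

/-!
The union of coherent isomorphisms onto a family which is independent only for the pieces of a
fixed size preserves the types of the pieces of a given size.
-/

universe u v

open Set Cardinal Function

namespace Vale.Agent.P307.R2.H581

open Vale.Agent.P307.R2.H541 Vale.Agent.P307.R2.H541.PG Vale.Agent.P307.R2.H533

open scoped Classical

variable {ι : Type v} {C : Type u} {M : PG C}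

variable (M) in
/-- Small bases, with a bound for their sizes. -/
def BasL : Prop := ∀ σ < M.χ, ∃ π < M.χ, ∀ P ∈ M.S, ∀ E : Set C, #E ≤ σ → ∃ p ⊆ P, #p ≤ π ∧
  ∀ g ∈ M.G, (∀ x ∈ p, g x = x) → ∀ D : Set C, #D < M.χ → M.Ind P E D → M.Ind P E (g '' D) →
    ∃ h ∈ M.G, (∀ x ∈ p, h x = x) ∧ (∀ x ∈ E, h x = x) ∧ ∀ x ∈ D, h x = g x

variable {A A' B T D : Finset ι → Set C} {F F' W : Finset (Finset ι)} {r s v w : Finset ι} {a : ι}
  {σ τ κ β H : Cardinal.{u}}

/-- Two pieces, independent over a model on both sides. -/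
theorem piece_of_base {D E Z p : Set C} {f : C → C} (hpD : p ⊆ D)
    (hp : ∀ g ∈ M.G, (∀ x ∈ p, g x = x) → ∀ Z : Set C, #Z < M.χ → M.Ind D E Z →
      M.Ind D E (g '' Z) → ∃ h ∈ M.G, (∀ x ∈ p, h x = x) ∧ (∀ x ∈ E, h x = x) ∧
        ∀ x ∈ Z, h x = g x)
    {g : Equiv.Perm C} (hg : g ∈ M.G) (hgf : ∀ a ∈ Z ∪ p, g a = f a) {k : Equiv.Perm C}
    (hk : k ∈ M.G) (hkD : ∀ d ∈ D, k d = f d) (hkE : ∀ e ∈ E, k e = f e) (hZc : #Z < M.χ)
    (h1 : M.Ind D E Z) (h2 : M.Ind (k '' D) (k '' E) (f '' Z)) :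
    ∃ g ∈ M.G, (∀ a ∈ Z, g a = f a) ∧ ∀ e ∈ E, g e = f e := by
  have hcomp : ((k⁻¹ : Equiv.Perm C) ∘ k) = id := by
    funext a
    exact inv_ap k a
  have h4 := h2.smul (M.G.inv_mem hk)
  rw [← image_comp, hcomp, image_id, ← image_comp, hcomp, image_id] at h4
  obtain ⟨l, hl, h5, h6, h7⟩ := hp (k⁻¹ * g) (M.G.mul_mem (M.G.inv_mem hk) hg) (fun c hc => by
    rw [Equiv.Perm.mul_apply, hgf c (Or.inr hc), ← hkD c (hpD hc), inv_ap]) Z hZc h1 (by
    refine h4.mono Subset.rfl ?_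
    rintro _ ⟨z, hz, rfl⟩
    refine ⟨f z, mem_image_of_mem f hz, ?_⟩
    rw [Equiv.Perm.mul_apply, hgf z (Or.inl hz)])
  refine ⟨k * l, M.G.mul_mem hk hl, fun a ha => ?_, fun e he => ?_⟩
  · rw [Equiv.Perm.mul_apply, h7 a ha, Equiv.Perm.mul_apply, ap_inv, hgf a (Or.inl ha)]
  · rw [Equiv.Perm.mul_apply, h6 e he, hkE e he]

/-- Hulls are replaced by the faces, one by one. -/
theorem exists_replace (hU : M.Up) (hBas : BasL M) (n : ℕ) :
    ∀ σ < M.χ, ∃ τ < M.χ, ∀ (B T D : Finset ι → Set C) (F W : Finset (Finset ι)) (f : C → C),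
      IFam M B F → IRef M B F → IFam M T F → IRefL M τ T F →
      (∀ v ∈ F, ∃ g ∈ M.G, (∀ a ∈ B v, g a = f a) ∧ g '' B v = T v) →
      (∀ v ∈ F, D v ⊆ B v) → (∀ w ∈ W, w ∈ F ∧ w.Nonempty ∧ D w ∈ M.S ∧ ibd B w ⊆ D w ∧
        ∀ v ∈ F, w ⊆ v → v = w) → W.card ≤ n → M.LE f (iun D F) →
      M.LEL σ f (iun (fun v => if v ∈ W then B v else D v) F) := by
  induction n with
  | zero =>
    intro σ hσ
    refine ⟨σ, hσ, fun B T D F W f hB hR hT hRT hf hDB hW hWn hLE E hE hEc => ?_⟩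
    have h1 : W = ∅ := Finset.card_eq_zero.1 (Nat.le_zero.1 hWn)
    subst h1
    refine hLE E (hE.trans ?_) (hEc.trans_lt hσ)
    rintro x ⟨v, hv, hx⟩
    exact ⟨v, hv, by simpa using hx⟩
  | succ n ih =>
    intro σ hσ
    obtain ⟨π, hπ, hb⟩ := hBas σ hσ
    obtain ⟨τ₀, hτ₀, h0⟩ := ih (σ + π) (add_lt_of_lt M.hχ hσ hπ)
    obtain ⟨τ₁, hτ₁, h1⟩ := hU σ hσ
    refine ⟨max τ₀ (τ₁ + τ₁), max_lt hτ₀ (add_lt_of_lt M.hχ hτ₁ hτ₁),
      fun B T D F W f hB hR hT hRT hf hDB hW hWn hLE => ?_⟩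
    rcases W.eq_empty_or_nonempty with rfl | ⟨w, hwW⟩
    · intro E hE hEc
      refine hLE E (hE.trans ?_) (hEc.trans_lt hσ)
      rintro x ⟨v, hv, hx⟩
      exact ⟨v, hv, by simpa using hx⟩
    obtain ⟨hwF, hw0, hDw, hbD, hmax⟩ := hW w hwW
    have hprev := h0 B T D F (W.erase w) f hB hR hT (hRT.level (le_max_left _ _)) hf hDB
      (fun w' hw' => hW w' (Finset.mem_of_mem_erase hw'))
      (by rw [Finset.card_erase_of_mem hwW]; omega) hLE
    have hDe : Down (F.erase w) := by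
      refine ⟨Finset.mem_erase.2 ⟨?_, hB.down.1⟩, fun v hv q hq => ?_⟩
      · rintro rfl
        exact Finset.not_nonempty_empty hw0
      · obtain ⟨hv1, hv2⟩ := Finset.mem_erase.1 hv
        refine Finset.mem_erase.2 ⟨?_, hB.down.2 v hv2 q hq⟩
        rintro rfl
        exact hv1 (hmax v hv2 hq)
    have hwe : w ∉ F.erase w := Finset.notMem_erase w F
    have hie : insert w (F.erase w) = F := Finset.insert_erase hwF
    have hes : F.erase w ⊆ F := Finset.erase_subset w F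
    obtain ⟨k, hk, hk1, hk2⟩ := hf w hwF
    have hkD : ∀ d ∈ D w, k d = f d := fun d hd => hk1 d (hDB w hwF hd)
    have hind : M.Ind (D w) (B w) (iun B (F.erase w)) :=
      ind_hull hB hR hwF hDe hes hwe hbD (hDB w hwF)
    have hfe : ∀ v ∈ F.erase w, ∃ g ∈ M.G, (∀ a ∈ B v, g a = f a) ∧ g '' B v = T v :=
      fun v hv => hf v (hes hv)
    have hwsub : ∀ q, q ⊂ w → q ∈ F := fun q hq => hB.down.2 w hwF q hq.1
    have hindL : M.IndL τ₁ (k '' D w) (T w) (iun T (F.erase w)) := by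
      refine IRefL.indL ?_ hwe hDe ?_ ?_ ?_
      · rw [hie]
        exact hB.down
      · rw [hie]
        exact hRT.level (le_max_right _ _)
      · rw [← ibd_image hf hwsub]
        rintro _ ⟨x, hx, rfl⟩
        exact ⟨x, hbD hx, hkD x (hbD hx)⟩
      · rw [← hk2]
        exact image_mono (hDB w hwF)
    intro E₀ hE₀ hE₀c
    have hc : ∀ {Y : Set C}, #(E₀ ∩ Y : Set C) ≤ σ := fun {Y} =>
      (mk_le_mk_of_subset inter_subset_left).trans hE₀c
    obtain ⟨Z, hZdef⟩ : ∃ Z : Set C, Z = E₀ ∩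
      iun (fun v => if v ∈ W.erase w then B v else D v) (F.erase w) := ⟨_, rfl⟩
    have hZσ : #Z ≤ σ := by
      rw [hZdef]
      exact hc
    have hZB : Z ⊆ iun B (F.erase w) := by
      rw [hZdef]
      rintro x ⟨-, v, hv, hx⟩
      refine ⟨v, hv, ?_⟩
      simp only at hx
      split_ifs at hx with h2
      · exact hx
      · exact hDB v (hes hv) hx
    obtain ⟨p, hpD, hpc, hp⟩ := hb (D w) hDw (E₀ ∩ B w) hc
    obtain ⟨g, hg, hgf⟩ := hprev (Z ∪ p) (by
      rintro x (hx | hx)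
      · rw [hZdef] at hx
        obtain ⟨-, v, hv, hx⟩ := hx
        exact ⟨v, hes hv, hx⟩
      · refine ⟨w, hwF, ?_⟩
        simp only [Finset.notMem_erase, if_false]
        exact hpD hx) ((mk_union_le _ _).trans (add_le_add hZσ hpc))
    obtain ⟨l, hl, h2, h3⟩ := piece_of_base hpD hp hg hgf hk hkD (fun e he => hk1 e he.2)
      (hZσ.trans_lt hσ) (hind.mono inter_subset_right hZB) (by
        refine h1 _ (M.S_inv hk hDw) _ _ (mk_image_le.trans hc) (mk_image_le.trans hZσ)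
          (hindL.mono ?_ ?_)
        · rw [← hk2]
          exact image_mono inter_subset_right
        · rw [← iun_image hfe]
          exact image_mono hZB)
    refine ⟨l, hl, fun x hx => ?_⟩
    obtain ⟨v, hv, hxv⟩ := hE₀ hx
    simp only at hxv
    by_cases hvw : v = w
    · subst hvw
      rw [if_pos hwW] at hxv
      exact h3 x ⟨hx, hxv⟩
    · refine h2 x ?_
      rw [hZdef]
      refine ⟨hx, v, Finset.mem_erase.2 ⟨hvw, hv⟩, ?_⟩
      simp only [Finset.mem_erase, ne_eq, hvw, not_false_eq_true, true_and]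
      exact hxv

/-- **The last union.** -/
theorem exists_last (hM : M.Calc) (hU : M.Up) (hBas : BasL M) (hG : ∀ i < s.card, GDI M ι i)
    {j : ℕ} (hj : j + 1 < s.card) (hσ : σ < M.χ) :
    ∃ τ < M.χ, ∀ (F : Finset (Finset ι)) (B T : Finset ι → Set C) (f : C → C),
      (∀ v ∈ F, v ⊆ s ∧ v.card ≤ j + 1) → IFam M B F → IRef M B F → IFam M T F →
      IRefL M τ T F → IRef M T (F.filter fun v => v.card ≤ j) →
      (∀ v ∈ F, ∃ g ∈ M.G, (∀ a ∈ B v, g a = f a) ∧ g '' B v = T v) →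
      M.LEL σ f (iun B F) := by
  obtain ⟨τ, hτ, h1⟩ := exists_replace (ι := ι) hU hBas s.powerset.card σ hσ
  refine ⟨τ, hτ, fun F B T f hFs hB hR hT hRT hRT' hf => ?_⟩
  set F₀ : Finset (Finset ι) := F.filter fun v => v.card ≤ j with hF₀
  have hF₀m : ∀ v, v ∈ F₀ ↔ v ∈ F ∧ v.card ≤ j := fun v => by rw [hF₀, Finset.mem_filter]
  have hF₀s : F₀ ⊆ F := Finset.filter_subset _ _
  have hF₀d : Down F₀ := by
    refine ⟨(hF₀m ∅).2 ⟨hB.down.1, by simp⟩, fun v hv q hq => (hF₀m q).2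
      ⟨hB.down.2 v (hF₀s hv) q hq, ?_⟩⟩
    exact (Finset.card_le_card hq).trans ((hF₀m v).1 hv).2
  have hLE₀ : M.LE f (iun B F₀) := le_arb hM (hB.sub hF₀d hF₀s) (hR.mono hF₀s)
    (hT.sub hF₀d hF₀s) hRT' (fun v hv _ => hG v.card (by
      have := ((hF₀m v).1 hv).2
      omega)) f fun v hv => hf v (hF₀s hv)
  -- the hulls
  have hhull : ∀ v : Finset ι, ∃ N : Set C, (v ∈ F → v.card ≤ j → N = B v) ∧
      (v ∈ F → ¬ v.card ≤ j → M.Atomic N (ibd B v) ∧ N ⊆ B v) := by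
    intro v
    by_cases hvF : v ∈ F
    · by_cases hvj : v.card ≤ j
      · exact ⟨B v, fun _ _ => rfl, fun _ h => absurd hvj h⟩
      · have hv1 := (hFs v hvF).2
        obtain ⟨N, hN⟩ := exists_hull hB hR hvF (Finset.card_pos.1 (by omega))
          fun _ => hG v.card (by omega)
        exact ⟨N, fun _ h => absurd h hvj, fun _ _ => hN⟩
    · exact ⟨∅, fun h => absurd h hvF, fun h => absurd h hvF⟩
  choose D hD1 hD2 using hhull
  have hDB : ∀ v ∈ F, D v ⊆ B v := by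
    intro v hv
    by_cases hvj : v.card ≤ j
    · rw [hD1 v hv hvj]
    · exact (hD2 v hv hvj).2
  have hbd : ∀ v ∈ F, ibd D v = ibd B v := by
    intro v hv
    refine ibd_congr fun q hq => hD1 q (hB.down.2 v hv q hq.1) ?_
    have h2 := Finset.card_lt_card hq
    have h3 := (hFs v hv).2
    omega
  have hDat : ∀ v ∈ F, v ∉ F₀ → M.Atomic (D v) (ibd D v) := by
    intro v hv hvF₀
    rw [hbd v hv]
    exact (hD2 v hv fun h => hvF₀ ((hF₀m v).2 ⟨hv, h⟩)).1
  have hD0 : ∀ v ∈ F₀, D v = B v := fun v hv => hD1 v (hF₀s hv) ((hF₀m v).1 hv).2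
  obtain ⟨hDfam, hDref⟩ := steps_of (B := D) hM hB.down hF₀d hF₀s (hB.sub hF₀d hF₀s)
    (hR.mono hF₀s) hD0 hDat
  have hst : Steps M D F₀ F := ⟨hDfam, hF₀d, hF₀s, fun w hw hw' => Or.inl (hDat w hw hw')⟩
  have hLE : M.LE f (iun D F) := by
    choose! g hg hg1 hg2 using hf
    refine hst.le_iun (A' := fun v => g v '' D v) hM (hDref.mono hF₀s) f ?_
      (fun v hv => ⟨g v, hg v hv, fun a ha => hg1 v hv a (hDB v hv ha), rfl⟩)
      (fun y hy hy' hat => absurd (hDat _ hy hy') hat)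
    rw [iun_congr hD0]
    exact hLE₀
  have h2 := h1 B T D F (F \ F₀) f hB hR hT hRT hf hDB (fun w hw => by
    obtain ⟨hw1, hw2⟩ := Finset.mem_sdiff.1 hw
    have hwj : ¬ w.card ≤ j := fun h => hw2 ((hF₀m w).2 ⟨hw1, h⟩)
    refine ⟨hw1, Finset.card_pos.1 (by omega), (hDat w hw1 hw2).mem, ?_, fun v hv hwv => ?_⟩
    · rw [← hbd w hw1]
      exact (hDat w hw1 hw2).sub
    · refine (Finset.eq_of_subset_of_card_le hwv ?_).symm
      have := (hFs v hv).2
      omega) (by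
    refine Finset.card_le_card ((Finset.sdiff_subset).trans fun v hv => ?_)
    exact Finset.mem_powerset.2 (hFs v hv).1) hLE
  intro E hE hEc
  refine h2 E (hE.trans ?_) hEc
  rintro x ⟨v, hv, hx⟩
  refine ⟨v, hv, ?_⟩
  simp only
  split_ifs with h3
  · exact hx
  · have h4 : v ∈ F₀ := by
      by_contra h5
      exact h3 (Finset.mem_sdiff.2 ⟨hv, h5⟩)
    rw [hD0 v h4]
    exact hx

/-- **The union of the charts.** The families are independent in full below dimension `j + 1`. -/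
theorem exists_lel (hM : M.Calc) (hB : Big M) (hU : M.Up) (hBas : BasL M) (hκ : κ < M.χ)
    (hFP : FPr M κ) (hG : ∀ i < s.card, GDI M ι i) {j : ℕ} (hj : j + 1 < s.card) (hH : H < M.χ)
    (hT : ∀ (A : Finset ι → Set C) (F : Finset (Finset ι)), Down F →
      (∀ v ∈ F, v ⊆ s ∧ v.card ≤ j) → IFam M A F → IRef M A F →
        ∀ ρ < M.χ, M.TmL κ H ρ (iun A F)) (hσ : σ < M.χ) :
    ∃ τ < M.χ, ∀ (F : Finset (Finset ι)) (B T : Finset ι → Set C)
      (φ : Finset ι → Equiv.Perm C), (∀ v ∈ F, v ⊆ s ∧ v.card ≤ j + 1) → IFam M B F →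
      IRef M B F → IFam M T F → IRefL M τ T F → H83.Coh M F B T φ →
      M.LEL σ (H83.umap F B φ) (iun B F) := by
  obtain ⟨τ₀, hτ₀, h0⟩ := exists_full hM hB hU hκ hFP hG hj hH hT
  obtain ⟨τ₁, hτ₁, h1⟩ := exists_last (s := s) hM hU hBas hG hj hσ
  refine ⟨max τ₀ τ₁, max_lt hτ₀ hτ₁, fun F B T φ hFs hBf hR hTf hRT hc => ?_⟩
  have hd : Down (F.filter fun v => v.card ≤ j) := by
    refine ⟨Finset.mem_filter.2 ⟨hBf.down.1, by simp⟩, fun v hv q hq => Finset.mem_filter.2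
      ⟨hBf.down.2 v (Finset.mem_filter.1 hv).1 q hq, ?_⟩⟩
    exact (Finset.card_le_card hq).trans (Finset.mem_filter.1 hv).2
  refine h1 F B T _ hFs hBf hR hTf (hRT.level (le_max_right _ _)) ?_ fun v hv =>
    ⟨φ v, hc.mem v hv, fun a ha => hc.umap_eq hBf hR hv ha, hc.img v hv⟩
  exact h0 T _ hd (fun v hv => ⟨(hFs v (Finset.mem_filter.1 hv).1).1,
    (Finset.mem_filter.1 hv).2⟩) (hTf.sub hd (Finset.filter_subset _ _))
    ((hRT.mono (Finset.filter_subset _ _)).level (le_max_left _ _))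

end Vale.Agent.P307.R2.H581
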