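import Vale.Agent.P307.R2.H581.LeBdd

/-!
Coherent isomorphisms from an independent family of models, with tops in the smaller dimensions,
onto a family which is independent for the pieces of a fixed size.
-/

universe u v

open Set Cardinal Function

namespace Vale.Agent.P307.R2.H581

open Vale.Agent.P307.R2.H541 Vale.Agent.P307.R2.H541.PG Vale.Agent.P307.R2.H533

open scoped Classical

variable {ι : Type v} {C : Type u} {M : PG C}

variable {A A' B : Finset ι → Set C} {F F' : Finset (Finset ι)} {r s v w : Finset ι} {a : ι}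
  {σ τ κ β : Cardinal.{u}}

/-- All proper faces but one of codimension one. -/
noncomputable def Fa (s : Finset ι) (a : ι) : Finset (Finset ι) := s.ssubsets.erase (s.erase a)

theorem mem_fa : v ∈ Fa s a ↔ v ≠ s.erase a ∧ v ⊂ s := by
  rw [Fa, Finset.mem_erase, Finset.mem_ssubsets]

theorem fa_sub : Fa s a ⊆ s.ssubsets := Finset.erase_subset _ _

theorem insert_fa (ha : a ∈ s) : insert (s.erase a) (Fa s a) = s.ssubsets :=
  Finset.insert_erase (Finset.mem_ssubsets.2 (Finset.erase_ssubset ha))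

theorem down_fa (ha : a ∈ s) (hs : 2 ≤ s.card) : Down (Fa s a) := by
  refine ⟨mem_fa.2 ⟨?_, ?_⟩, fun v hv r hr => mem_fa.2 ⟨?_, ?_⟩⟩
  · intro h
    have h1 := Finset.card_erase_of_mem ha
    rw [← h, Finset.card_empty] at h1
    omega
  · exact Finset.empty_ssubset.2 ⟨a, ha⟩
  · rintro rfl
    obtain ⟨h1, h2⟩ := mem_fa.1 hv
    apply h1
    refine (Finset.eq_of_subset_of_card_le hr ?_).symm
    have h3 := Finset.card_lt_card h2
    have h4 := Finset.card_erase_of_mem ha
    omega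
  · exact lt_of_le_of_lt hr (mem_fa.1 hv).2

theorem insert_mem_fa (ha : a ∈ s) {u : Finset ι} (hu : u ⊂ s.erase a) :
    insert a u ∈ Fa s a := by
  refine mem_fa.2 ⟨fun h => ?_, ?_⟩
  · have h1 := Finset.mem_insert_self a u
    rw [h] at h1
    exact Finset.notMem_erase a s h1
  · have h1 := insert_ssubset_insert' (Finset.notMem_erase a s) hu
    rwa [Finset.insert_erase ha] at h1

theorem erase_ssub (hv : v ∈ Fa s a) : v.erase a ⊂ s.erase a := by
  obtain ⟨h1, h2⟩ := mem_fa.1 hv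
  refine lt_of_le_of_ne (Finset.erase_subset_erase a h2.1) fun h3 => ?_
  by_cases h4 : a ∈ v
  · apply h2.ne
    rw [← Finset.insert_erase h4, h3, Finset.insert_erase (h2.1 h4)]
  · rw [Finset.erase_eq_of_notMem h4] at h3
    exact h1 h3

/-- The boundary of the link of a point. -/
theorem exists_link_top (ha : a ∈ s) (hs : 2 ≤ s.card) (hG : GDI M ι (s.card - 1))
    (hB : IFam M B (Fa s a)) (hR : IRef M B (Fa s a)) : ∃ Q, M.Atomic Q (iun B (Fa s a)) := by
  have hne : (s.erase a).Nonempty := by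
    rw [← Finset.card_pos, Finset.card_erase_of_mem ha]
    omega
  obtain ⟨Q, hQ⟩ := hG (fun u => B (insert a u)) (s.erase a) (Finset.card_erase_of_mem ha)
    ⟨down_ssubsets hne, fun t ht => hB.mem _ (insert_mem_fa ha (Finset.mem_ssubsets.1 ht)),
      fun t ht r hr => hB.mono _ (insert_mem_fa ha (Finset.mem_ssubsets.1 ht)) _
        (Finset.insert_subset_insert a hr)⟩ (by
    intro x E hE hEc
    by_cases hx : x = a
    · subst hx
      refine ⟨1, M.G.one_mem, fun v hv e he hev => ?_⟩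
      have h1 : x ∉ v := fun h2 => Finset.notMem_erase x s ((Finset.mem_ssubsets.1 hv).1 h2)
      rw [Finset.erase_eq_of_notMem h1]
      exact ⟨hev, fun _ => rfl⟩
    · obtain ⟨g, hg, h1⟩ := hR x E (by
        intro e he
        obtain ⟨v, hv, hev⟩ := hE he
        exact ⟨_, insert_mem_fa ha (Finset.mem_ssubsets.1 hv), hev⟩) hEc
      refine ⟨g, hg, fun v hv e he hev => ?_⟩
      have h2 := h1 _ (insert_mem_fa ha (Finset.mem_ssubsets.1 hv)) e he hev
      rw [Finset.erase_insert_of_ne (Ne.symm hx)] at h2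
      refine ⟨h2.1, fun h3 => h2.2 fun h4 => ?_⟩
      rcases Finset.mem_insert.1 h4 with h5 | h5
      · exact hx h5
      · exact h3 h5)
  refine ⟨Q, ?_⟩
  have h1 : ibd (fun u => B (insert a u)) (s.erase a) = iun B (Fa s a) := by
    ext x
    constructor
    · rintro ⟨u, hu, hx⟩
      exact ⟨_, insert_mem_fa ha hu, hx⟩
    · rintro ⟨v, hv, hx⟩
      refine ⟨v.erase a, erase_ssub hv, ?_⟩
      change x ∈ B (insert a (v.erase a))
      refine hB.mono _ (insert_mem_fa ha (erase_ssub hv)) v ?_ hx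
      intro z hz
      rw [Finset.mem_insert, Finset.mem_erase]
      by_cases h2 : z = a
      · exact Or.inl h2
      · exact Or.inr ⟨h2, hz⟩
  rwa [h1] at hQ

/-- Atomic models over the old faces, when the new ones are atomic over their boundaries. -/
theorem atomic_descend (hB : IFam M B F) (hR : IRef M B F) (hF' : Down F') (hsub : F' ⊆ F)
    (hat : ∀ v ∈ F, v ∉ F' → M.Atomic (B v) (ibd B v)) {Q : Set C} (hQ : M.Atomic Q (iun B F)) :
    M.Atomic Q (iun B F') := by
  have key : ∀ F₁, Down F₁ → F' ⊆ F₁ → F₁ ⊆ F → M.Atomic Q (iun B F₁) →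
      M.Atomic Q (iun B F') := by
    refine down_induction_from (p := fun F₁ => F₁ ⊆ F → M.Atomic Q (iun B F₁) →
      M.Atomic Q (iun B F')) hF' (fun _ h => h) ?_
    intro F₁ w hF₁ hF'₁ hwF₁ hw ih hsub' h
    have hs : F₁ ⊆ F := (Finset.subset_insert w F₁).trans hsub'
    rw [iun_insert] at h
    exact ih hs (atomic_trans h (hat w (hsub' (Finset.mem_insert_self w F₁))
      fun h1 => hwF₁ (hF'₁ h1)) (ibd_sub_iun hw) ((hR.mono hs).tv hF₁ hwF₁ hw))
  exact key F hB.down hsub Finset.Subset.rfl hQ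

theorem steps_of (hM : M.Calc) (hF : Down F) (hF' : Down F') (hsub : F' ⊆ F)
    (hA : IFam M A F') (hR : IRef M A F') (h1 : ∀ v ∈ F', B v = A v)
    (h2 : ∀ v ∈ F, v ∉ F' → M.Atomic (B v) (ibd B v)) : IFam M B F ∧ IRef M B F := by
  have hfam : IFam M B F := by
    refine ⟨hF, fun t ht => ?_, fun t ht r hr => ?_⟩
    · by_cases h3 : t ∈ F'
      · rw [h1 t h3]
        exact hA.mem t h3
      · exact (h2 t ht h3).mem
    · by_cases h3 : t ∈ F'
      · rw [h1 t h3, h1 r (hF'.2 t h3 r hr)]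
        exact hA.mono t h3 r hr
      · rcases eq_or_ne r t with rfl | hne
        · exact Subset.rfl
        · exact fun x hx => (h2 t ht h3).sub ⟨r, lt_of_le_of_ne hr hne, hx⟩
  have hst : Steps M B F' F := ⟨hfam, hF', hsub, fun w hw hw' => Or.inl (h2 w hw hw')⟩
  exact ⟨hfam, hst.ref hM (hR.congr hF' fun v hv => (h1 v hv).symm)⟩

/-- Filling by atomic faces. -/
theorem exists_filling (hM : M.Calc) (hs : ∀ v ∈ F, v.Nonempty → GDI M ι v.card)
    (hF : Down F) (hF' : Down F') (hsub : F' ⊆ F) (hA : IFam M A F') (hR : IRef M A F') :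
    ∃ B : Finset ι → Set C, (∀ v ∈ F', B v = A v) ∧ IFam M B F ∧ IRef M B F ∧
      ∀ v ∈ F, v ∉ F' → M.Atomic (B v) (ibd B v) := by
  have key : ∀ F₁, Down F₁ → F' ⊆ F₁ → F₁ ⊆ F → ∃ B : Finset ι → Set C,
      (∀ v ∈ F', B v = A v) ∧ ∀ v ∈ F₁, v ∉ F' → M.Atomic (B v) (ibd B v) := by
    refine down_induction_from (p := fun F₁ => F₁ ⊆ F → ∃ B : Finset ι → Set C,
      (∀ v ∈ F', B v = A v) ∧ ∀ v ∈ F₁, v ∉ F' → M.Atomic (B v) (ibd B v)) hF'
      (fun _ => ⟨A, fun _ _ => rfl, fun v hv hv' => absurd hv hv'⟩) ?_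
    intro F₁ w hF₁ hF'₁ hwF₁ hw ih hsub'
    have hs₁ : F₁ ⊆ F := (Finset.subset_insert w F₁).trans hsub'
    have hwF' : w ∉ F' := fun h1 => hwF₁ (hF'₁ h1)
    obtain ⟨B, h1, h2⟩ := ih hs₁
    have hw0 : w.Nonempty := by
      rw [Finset.nonempty_iff_ne_empty]
      rintro rfl
      exact hwF₁ hF₁.1
    obtain ⟨h3, h4⟩ := steps_of hM hF₁ hF' hF'₁ hA hR h1 h2
    have hws : w.ssubsets ⊆ F₁ := fun v hv => hw v (Finset.mem_ssubsets.1 hv)
    obtain ⟨N, hN⟩ := hs w (hsub' (Finset.mem_insert_self w F₁)) hw0 B w rfl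
      (h3.sub (down_ssubsets hw0) hws) (h4.mono hws)
    refine ⟨update B w N, fun v hv => ?_, fun v hv hvF' => ?_⟩
    · rw [update_of_ne]
      · exact h1 v hv
      · rintro rfl
        exact hwF' hv
    · rcases Finset.mem_insert.1 hv with rfl | hv'
      · rw [update_self, ← ibd_congr (A := B) fun q hq => by rw [update_of_ne hq.ne]]
        exact hN
      · have hvw : v ≠ w := by
          rintro rfl
          exact hwF₁ hv'
        rw [update_of_ne hvw, ← ibd_congr (A := B) fun q hq => by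
          rw [update_of_ne]
          rintro rfl
          exact hwF₁ (hF₁.2 v hv' _ hq.1)]
        exact h2 v hv' hvF'
  obtain ⟨B, h1, h2⟩ := key F hF hsub Finset.Subset.rfl
  obtain ⟨h3, h4⟩ := steps_of hM hF hF' hsub hA hR h1 h2
  exact ⟨B, h1, h3, h4, h2⟩

end Vale.Agent.P307.R2.H581
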