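import Vale.Agent.P307.R2.H287.CloStr

/-!
The traces of the closed sets on a strong submodel of any size are strong submodels of a given
size.
-/

set_option linter.unusedSectionVars false

universe u

open FirstOrder Cardinal Set

namespace Vale.Agent.P307.R2.H581

open Vale.Agent.P307 Vale.Agent.P307.H304 Vale.Agent.P307.R2.H287 Vale.Agent.P307.R2.H1
  Vale.Agent.P307.R2.H68 Vale.Agent.P307.R2.H971 Vale.Agent.P307.R2.H804
  Vale.Agent.P307.R2.H541 Language.Structure Language.Substructure

variable {L : Language.{u, u}} {K : AEC L} {ℓ τ : Cardinal.{u}} {C : Type u} [L.Structure C]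

/-- **Traces of a strong submodel.** The traces on `R` of the closed sets of size at most `τ` are
strong submodels of size `τ`, which contain a given set `S` of size at most `τ`. -/
theorem exists_clo_trace (hK : K.IsLS ℓ) (hτ : ℓ ≤ τ) {R : L.Substructure C} (hR : K.le R)
    (hRc : τ ≤ #R) {S : Set C} (hSc : #S ≤ τ) :
    ∃ φ : Finset C → Set C, (∀ s, #(φ s) ≤ τ) ∧ ∀ H : Set C, Clo φ H → S ⊆ H ∧ (#H ≤ τ →
      ∃ T : L.Substructure C, K.le T ∧ #T = τ ∧ (T : Set C) = (R : Set C) ∩ H ∧ T ≤ R) := by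
  have hτ0 : ℵ₀ ≤ τ := hK.1.trans hτ
  obtain ⟨N₀, hN₀, hN₀c⟩ := (le_mk_iff_exists_subset (s := (R : Set C))).1 hRc
  obtain ⟨φ₁, h1, -, h3⟩ := exists_clo_strong hK hR
  refine ⟨fun s => S ∪ (N₀ ∪ φ₁ s), fun s => ?_, fun H hH => ⟨?_, fun hHc => ?_⟩⟩
  · refine (mk_union_le _ _).trans (add_le_of_le hτ0 hSc ((mk_union_le _ _).trans
      (add_le_of_le hτ0 hN₀c.le ((h1 s).trans hτ))))
  · exact subset_union_left.trans (hH ∅ (by simp))
  · obtain ⟨T, hT, hTc⟩ := h3 H (hH.mono fun s => subset_union_right.trans subset_union_right)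
    refine ⟨T, hT, ?_, hTc, fun x hx => ?_⟩
    · change #(T : Set C) = τ
      rw [hTc]
      refine le_antisymm ((mk_le_mk_of_subset inter_subset_right).trans hHc) ?_
      refine hN₀c.ge.trans (mk_le_mk_of_subset (subset_inter hN₀ ?_))
      exact (subset_union_left.trans subset_union_right).trans (hH ∅ (by simp))
    · have h4 : x ∈ (T : Set C) := hx
      rw [hTc] at h4
      exact h4.1

end Vale.Agent.P307.R2.H581
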